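import Vale.Agent.P181.TB.Defs
import Vale.Agent.P181.TB.H59.KeyPos0

/-! # P181, TB: (TB3') -/

namespace Vale.Agent.P181.TB.H59

theorem keyPos : Vale.Agent.P181.TB.KeyPos := keyPos0

end Vale.Agent.P181.TB.H59
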